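import Vale.Agent.Lib.P188.WordMetric

/-!
Counting the elements of balls of the word metric, and the index of a coarsely dense cyclic
subgroup.
-/

namespace Vale.Agent.Lib.P188

open Subgroup

variable {G : Type*} [Group G]

theorem ncard_letters_le (S : Set G) : (S ∪ S⁻¹).ncard ≤ 2 * S.ncard := by
  have h1 := Set.ncard_union_le S S⁻¹
  have h2 : (S⁻¹).ncard = S.ncard := by
    rw [← Set.image_inv_eq_inv]
    exact Set.ncard_image_of_injective S inv_injective
  omega

theorem ncard_ball_le (S : Set G) (hSf : S.Finite) (hS : closure S = ⊤) (R : ℕ) :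
    {g : G | wordLen S g ≤ R}.ncard ≤ (2 * S.ncard + 1) ^ R := by
  induction R with
  | zero =>
    have hsub : {g : G | wordLen S g ≤ 0} ⊆ {1} := by
      intro g hg
      have hg' : wordLen S g ≤ 0 := hg
      obtain ⟨l, h1, -, h3⟩ := wordLen_spec S hS g
      have hl : l = [] := List.length_eq_zero_iff.mp (by omega)
      rw [hl, List.prod_nil] at h3
      exact h3.symm
    have := Set.ncard_le_ncard hsub (Set.finite_singleton 1)
    simpa using this
  | succ R ih =>
    have hA : (S ∪ S⁻¹).Finite := hSf.union hSf.inv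
    have hAf : Finite ↥(S ∪ S⁻¹) := hA.to_subtype
    have hball := finite_ball S hSf hS R
    set φ : G × Option ↥(S ∪ S⁻¹) → G := fun p => p.1 * (p.2.elim 1 Subtype.val) with hφ
    have hsub : {g : G | wordLen S g ≤ R + 1} ⊆
        φ '' ({g : G | wordLen S g ≤ R} ×ˢ (Set.univ : Set (Option ↥(S ∪ S⁻¹)))) := by
      intro g hg
      have hg' : wordLen S g ≤ R + 1 := hg
      by_cases hR : wordLen S g ≤ R
      · exact ⟨(g, none), ⟨hR, Set.mem_univ _⟩, by simp [hφ]⟩
      · obtain ⟨l, h1, h2, h3⟩ := wordLen_spec S hS g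
        have hlen : l.length = R + 1 := by omega
        have hne : l ≠ [] := by
          intro h; rw [h] at hlen; simp at hlen
        have hsplit := List.dropLast_append_getLast hne
        have hlast : l.getLast hne ∈ S ∪ S⁻¹ := by
          have := h2 _ (List.getLast_mem hne)
          simpa using this
        refine ⟨(l.dropLast.prod, some ⟨l.getLast hne, hlast⟩), ⟨?_, Set.mem_univ _⟩, ?_⟩
        · have := wordLen_le S (g := l.dropLast.prod) l.dropLast
            (fun x hx => h2 x (List.mem_of_mem_dropLast hx)) rfl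
          rw [List.length_dropLast] at this
          show wordLen S l.dropLast.prod ≤ R
          omega
        · show l.dropLast.prod * l.getLast hne = g
          rw [← h3]
          conv_rhs => rw [← hsplit]
          rw [List.prod_append, List.prod_singleton]
    have hfin : ({g : G | wordLen S g ≤ R} ×ˢ
        (Set.univ : Set (Option ↥(S ∪ S⁻¹)))).Finite := hball.prod Set.finite_univ
    have h1 := Set.ncard_le_ncard hsub (hfin.image φ)
    have h2 := Set.ncard_image_le (f := φ) hfin
    rw [Set.ncard_prod, Set.ncard_univ, Finite.card_option, Nat.card_coe_set_eq] at h2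
    have h3 := ncard_letters_le S
    calc {g : G | wordLen S g ≤ R + 1}.ncard
        ≤ {g : G | wordLen S g ≤ R}.ncard * ((S ∪ S⁻¹).ncard + 1) := h1.trans h2
      _ ≤ (2 * S.ncard + 1) ^ R * (2 * S.ncard + 1) :=
          Nat.mul_le_mul ih (by omega)
      _ = (2 * S.ncard + 1) ^ (R + 1) := by rw [pow_succ]

/-- If the powers of `h` are `R`-dense for the word metric then the index of `⟨h⟩` is at most
the number of elements of the ball of radius `R`. -/
theorem index_zpowers_le_of_dense (S : Set G) (hSf : S.Finite)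
    (hS : closure S = ⊤) (h : G) (R : ℕ)
    (hd : ∀ x, ∃ k : ℤ, wordDist S (h ^ k) x ≤ R) :
    (zpowers h).index ≤ (2 * S.ncard + 1) ^ R := by
  have hfin := finite_ball S hSf hS R
  have : Finite {g : G | wordLen S g ≤ R} := hfin.to_subtype
  have hsurj : Function.Surjective (fun b : {g : G | wordLen S g ≤ R} =>
      (QuotientGroup.mk (b : G)⁻¹ : G ⧸ zpowers h)) := by
    intro q
    induction q using QuotientGroup.induction_on with
    | H y =>
      obtain ⟨k, hk⟩ := hd y⁻¹
      refine ⟨⟨(h ^ k)⁻¹ * y⁻¹, hk⟩, ?_⟩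
      show (QuotientGroup.mk ((h ^ k)⁻¹ * y⁻¹)⁻¹ : G ⧸ zpowers h) = QuotientGroup.mk y
      rw [QuotientGroup.eq]
      have : (((h ^ k)⁻¹ * y⁻¹)⁻¹)⁻¹ * y = (h ^ k)⁻¹ := by group
      rw [this]
      exact inv_mem (zpow_mem_zpowers h k)
  have h1 := Nat.card_le_card_of_surjective _ hsurj
  rw [Nat.card_coe_set_eq] at h1
  rw [index_eq_card]
  exact h1.trans (ncard_ball_le S hSf hS R)

end Vale.Agent.Lib.P188
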