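import Mathlib

/-!
Core coarse lemma: a group with a left-invariant integer valued distance function which is
quasi-isometric to the integers contains an element whose powers are coarsely dense.
-/

namespace Vale.Agent.Lib.P188

variable {H : Type*} [Group H]

/-- Hypotheses: `d` is left invariant, `f` is a `(K,C)` quasi-isometry to the integers. -/
structure LineData (d : H → H → ℤ) (f : H → ℤ) (K C : ℤ) : Prop where
  hK : 1 ≤ K
  hC : 0 ≤ C
  inv : ∀ h x y, d (h * x) (h * y) = d x y
  up : ∀ x y, |f x - f y| ≤ K * d x y + C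
  low : ∀ x y, d x y ≤ K * |f x - f y| + K * C
  dense : ∀ m : ℤ, ∃ x, |f x - m| ≤ C

namespace LineData

variable {d : H → H → ℤ} {f : H → ℤ} {K C : ℤ}

theorem neg (D : LineData d f K C) : LineData d (fun x => - f x) K C where
  hK := D.hK
  hC := D.hC
  inv := D.inv
  up := fun x y => by
    have := D.up x y
    have e : |(- f x) - (- f y)| = |f x - f y| := by
      rw [show (- f x) - (- f y) = -(f x - f y) by ring, abs_neg]
    show |(- f x) - (- f y)| ≤ K * d x y + C
    rw [e]; exact this
  low := fun x y => by
    have := D.low x y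
    have e : |(- f x) - (- f y)| = |f x - f y| := by
      rw [show (- f x) - (- f y) = -(f x - f y) by ring, abs_neg]
    show d x y ≤ K * |(- f x) - (- f y)| + K * C
    rw [e]; exact this
  dense := fun m => by
    obtain ⟨x, hx⟩ := D.dense (-m)
    refine ⟨x, ?_⟩
    have e : |(- f x) - m| = |f x - (-m)| := by
      rw [show (- f x) - m = -(f x - (-m)) by ring, abs_neg]
    show |(- f x) - m| ≤ C
    rw [e]; exact hx

/-- the threshold transformer: `thr K C b = K^2 b + K^2 C + C`. -/
def thr (K C b : ℤ) : ℤ := K * K * b + K * K * C + C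

theorem le_thr (D : LineData d f K C) {b : ℤ} (hb : 0 ≤ b) : b ≤ thr K C b := by
  have hK := D.hK
  have hC := D.hC
  unfold thr
  nlinarith [mul_nonneg (mul_nonneg (sub_nonneg.mpr hK) (sub_nonneg.mpr hK)) hb,
    mul_nonneg (sub_nonneg.mpr hK) hb, mul_nonneg (mul_nonneg (by linarith : (0:ℤ) ≤ K) (by linarith : (0:ℤ) ≤ K)) hC]

/-- Lemma G: pairs at the same distance have comparable separation under `f`. -/
theorem gap (D : LineData d f K C) {b : ℤ} {x y u v : H} (hd : d u v = d x y)
    (h : thr K C b ≤ |f x - f y|) : b ≤ |f u - f v| := by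
  have h1 := D.up x y
  have h2 := D.low u v
  have hK := D.hK
  unfold thr at h
  rw [← hd] at h1
  have h3 : K * K * b ≤ K * K * |f u - f v| := by nlinarith
  have hKK : 0 < K * K := by positivity
  exact le_of_mul_le_mul_left h3 hKK

/-- the constant `a` -/
def cA (K C : ℤ) : ℤ := K * (K * (3 * C + 1)) + C

/-- the constant `B₀` -/
def cB0 (K C : ℤ) : ℤ := thr K C (cA K C + 1)

/-- the constant `B` -/
def cB (K C : ℤ) : ℤ := cB0 K C + C

theorem cA_nonneg (D : LineData d f K C) : 0 ≤ cA K C := by
  have hK := D.hK
  have hC := D.hC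
  unfold cA
  positivity

theorem cB0_pos (D : LineData d f K C) : 1 ≤ cB0 K C := by
  have := D.le_thr (b := cA K C + 1) (by have := D.cA_nonneg; linarith)
  have h2 := D.cA_nonneg
  unfold cB0
  linarith

theorem cB_pos (D : LineData d f K C) : 1 ≤ cB K C := by
  have := D.cB0_pos
  have := D.hC
  unfold cB
  linarith

/-- Lemma A': nearby far points are on the same side after translation. -/
theorem same_side (D : LineData d f K C) (h x z z' : H)
    (hz : f x + cB0 K C ≤ f z) (hz' : f x + cB0 K C ≤ f z')
    (hzz : |f z - f z'| ≤ 2 * C + 1) :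
    f (h * x) < f (h * z) ↔ f (h * x) < f (h * z') := by
  have hK := D.hK
  have hC := D.hC
  have hA := D.cA_nonneg
  have hB0 := D.cB0_pos
  -- |g z| ≥ a + 1
  have g1 : cA K C + 1 ≤ |f (h * x) - f (h * z)| := by
    apply D.gap (x := x) (y := z) (D.inv h x z)
    rw [abs_sub_comm, abs_of_nonneg (by linarith)]
    unfold cB0 at hz
    linarith
  have g2 : cA K C + 1 ≤ |f (h * x) - f (h * z')| := by
    apply D.gap (x := x) (y := z') (D.inv h x z')
    rw [abs_sub_comm, abs_of_nonneg (by linarith)]
    unfold cB0 at hz'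
    linarith
  -- |g z - g z'| ≤ a
  have g3 : |f (h * z) - f (h * z')| ≤ cA K C := by
    have h1 := D.up (h * z) (h * z')
    rw [D.inv] at h1
    have h2 := D.low z z'
    have h3 : K * d z z' ≤ K * (K * (2 * C + 1) + K * C) := by
      apply mul_le_mul_of_nonneg_left _ (by linarith)
      have : K * |f z - f z'| ≤ K * (2 * C + 1) := mul_le_mul_of_nonneg_left hzz (by linarith)
      linarith
    unfold cA
    linarith
  constructor
  · intro hlt
    by_contra hcon
    have hcon := not_lt.mp hcon
    rw [abs_of_nonpos (by linarith)] at g1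
    rw [abs_of_nonneg (by linarith)] at g2
    have := (abs_le.mp g3).2
    linarith
  · intro hlt
    by_contra hcon
    have hcon := not_lt.mp hcon
    rw [abs_of_nonneg (by linarith)] at g1
    rw [abs_of_nonpos (by linarith)] at g2
    have := (abs_le.mp g3).1
    linarith

/-- Prop A: all points far to the right of `x` go to the same side of `h x`. -/
theorem right_dichotomy (D : LineData d f K C) (h x : H) :
    (∀ y, f x + cB K C ≤ f y → f (h * x) < f (h * y)) ∨
    (∀ y, f x + cB K C ≤ f y → f (h * y) < f (h * x)) := by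
  have hK := D.hK
  have hC := D.hC
  have hA := D.cA_nonneg
  have hB0 := D.cB0_pos
  set P : ℤ → Prop := fun m => ∀ z, |f z - m| ≤ C → f (h * x) < f (h * z) with hP
  have step : ∀ m, f x + cB K C ≤ m → (P m ↔ P (m + 1)) := by
    intro m hm
    unfold cB at hm
    constructor
    · intro hPm z' hz'
      obtain ⟨z, hz⟩ := D.dense m
      have h1 := hPm z hz
      have a1 := abs_le.mp hz
      have a2 := abs_le.mp hz'
      refine (D.same_side h x z z' (by linarith) (by linarith) ?_).mp h1
      rw [abs_le]; constructor <;> linarith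
    · intro hPm z hz
      obtain ⟨z', hz'⟩ := D.dense (m + 1)
      have h1 := hPm z' hz'
      have a1 := abs_le.mp hz
      have a2 := abs_le.mp hz'
      refine (D.same_side h x z z' (by linarith) (by linarith) ?_).mpr h1
      rw [abs_le]; constructor <;> linarith
  have all : ∀ m, f x + cB K C ≤ m → (P m ↔ P (f x + cB K C)) := by
    intro m hm
    induction m, hm using Int.leInduction with
    | base => exact Iff.rfl
    | succ n hn ih => exact (step n hn).symm.trans ih
  by_cases h0 : P (f x + cB K C)
  · left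
    intro y hy
    exact (all (f y) hy).mpr h0 y (by simp [hC])
  · right
    intro y hy
    have hny : ¬ P (f y) := fun hp => h0 ((all (f y) hy).mp hp)
    rw [hP] at hny
    simp only [not_forall] at hny
    obtain ⟨z, hz, hz2⟩ := hny
    have a1 := abs_le.mp hz
    unfold cB at hy
    have hnot : ¬ f (h * x) < f (h * y) := by
      intro hlt
      have := (D.same_side h x y z (by linarith) (by linarith) (by
        rw [abs_le]; constructor <;> linarith)).mp hlt
      linarith
    have g1 : cA K C + 1 ≤ |f (h * x) - f (h * y)| := by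
      apply D.gap (x := x) (y := y) (D.inv h x y)
      rw [abs_sub_comm, abs_of_nonneg (by linarith)]
      unfold cB0 at hy
      linarith
    have hnot := not_lt.mp hnot
    rcases lt_or_eq_of_le hnot with hlt | heq
    · exact hlt
    · rw [heq] at g1
      simp at g1
      linarith

/-- Prop A on the left, obtained by applying Prop A to `-f`. -/
theorem left_dichotomy (D : LineData d f K C) (h x : H) :
    (∀ y, f y + cB K C ≤ f x → f (h * y) < f (h * x)) ∨
    (∀ y, f y + cB K C ≤ f x → f (h * x) < f (h * y)) := by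
  rcases D.neg.right_dichotomy h x with h1 | h1
  · left
    intro y hy
    have := h1 y (by linarith)
    linarith
  · right
    intro y hy
    have := h1 y (by linarith)
    linarith

/-- `h` preserves the coarse order. -/
def Pres (f : H → ℤ) (B : ℤ) (h : H) : Prop := ∀ x y, f x + B ≤ f y → f (h * x) < f (h * y)

/-- `h` reverses the coarse order. -/
def Rev (f : H → ℤ) (B : ℤ) (h : H) : Prop := ∀ x y, f x + B ≤ f y → f (h * y) < f (h * x)

theorem exists_ge (D : LineData d f K C) (m : ℤ) : ∃ x, m ≤ f x ∧ f x ≤ m + 2 * C := by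
  obtain ⟨x, hx⟩ := D.dense (m + C)
  have := abs_le.mp hx
  exact ⟨x, by linarith, by linarith⟩

/-- Prop B -/
theorem pres_or_rev (D : LineData d f K C) (h : H) : Pres f (cB K C) h ∨ Rev f (cB K C) h := by
  have hBpos := D.cB_pos
  rcases D.right_dichotomy h 1 with h1 | h1
  · left
    intro x y hxy
    obtain ⟨w, hw, -⟩ := D.exists_ge (max (f 1) (max (f x) (f y)) + cB K C)
    have m1 : f 1 ≤ max (f 1) (max (f x) (f y)) := le_max_left _ _
    have m2 : f x ≤ max (f 1) (max (f x) (f y)) := le_trans (le_max_left _ _) (le_max_right _ _)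
    have e1 := h1 w (by linarith)
    have e2 : f (h * x) < f (h * w) := by
      rcases D.left_dichotomy h w with h2 | h2
      · exact h2 x (by linarith)
      · have := h2 1 (by linarith)
        linarith
    rcases D.right_dichotomy h x with h3 | h3
    · exact h3 y hxy
    · have := h3 w (by linarith)
      linarith
  · right
    intro x y hxy
    obtain ⟨w, hw, -⟩ := D.exists_ge (max (f 1) (max (f x) (f y)) + cB K C)
    have m1 : f 1 ≤ max (f 1) (max (f x) (f y)) := le_max_left _ _
    have m2 : f x ≤ max (f 1) (max (f x) (f y)) := le_trans (le_max_left _ _) (le_max_right _ _)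
    have e1 := h1 w (by linarith)
    have e2 : f (h * w) < f (h * x) := by
      rcases D.left_dichotomy h w with h2 | h2
      · have := h2 1 (by linarith)
        linarith
      · exact h2 x (by linarith)
    rcases D.right_dichotomy h x with h3 | h3
    · have := h3 w (by linarith)
      linarith
    · exact h3 y hxy

/-- the constant `B₂` -/
def cB2 (K C : ℤ) : ℤ := thr K C (cB K C)

theorem cB_le_cB2 (D : LineData d f K C) : cB K C ≤ cB2 K C :=
  D.le_thr (by have := D.cB_pos; linarith)

/-- product of two reversing elements preserves -/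
theorem pres_of_rev_rev (D : LineData d f K C) {h h' : H} (hh : Rev f (cB K C) h)
    (hh' : Rev f (cB K C) h') : Pres f (cB K C) (h * h') := by
  have hBpos := D.cB_pos
  have hB2 := D.cB_le_cB2
  rcases D.pres_or_rev (h * h') with hp | hr
  · exact hp
  · exfalso
    obtain ⟨y, hy, -⟩ := D.exists_ge (f 1 + cB2 K C)
    have e1 := hh' 1 y (by linarith)
    have g : cB K C ≤ |f (h' * 1) - f (h' * y)| := by
      apply D.gap (x := 1) (y := y) (D.inv h' 1 y)
      rw [abs_sub_comm, abs_of_nonneg (by linarith)]
      unfold cB2 at hy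
      linarith
    rw [abs_of_nonneg (by linarith)] at g
    have e2 := hh (h' * y) (h' * 1) (by linarith)
    have e3 := hr 1 y (by linarith)
    rw [mul_assoc, mul_assoc] at e3
    linarith

/-- the constant `B₄` -/
def cB4 (K C : ℤ) : ℤ := thr K C (2 * cB2 K C + 2 * C)

/-- the constant `N` bounding the displacement of the chosen element -/
def cN (K C : ℤ) : ℤ := K * (K * (cB4 K C + 2 * C) + K * C) + C + cB2 K C + 2 * C

/-- Prop E: an order preserving element which moves the identity far, but not too far. -/
theorem exists_pres (D : LineData d f K C) :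
    ∃ h : H, Pres f (cB K C) h ∧ cB2 K C ≤ |f h - f 1| ∧ |f h - f 1| ≤ cN K C := by
  have hK := D.hK
  have hC := D.hC
  have hBpos := D.cB_pos
  have hB2 := D.cB_le_cB2
  have hB4 : 2 * cB2 K C + 2 * C ≤ cB4 K C := D.le_thr (by linarith)
  have hKK : 1 ≤ K * K := by nlinarith
  have hN1 : cB4 K C + 2 * C ≤ K * (K * (cB4 K C + 2 * C) + K * C) := by
    have h1 : 0 ≤ K * (K * C) := by positivity
    have h2 : (cB4 K C + 2 * C) ≤ K * K * (cB4 K C + 2 * C) := by
      have : 0 ≤ (K * K - 1) * (cB4 K C + 2 * C) :=
        mul_nonneg (by linarith) (by linarith)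
      nlinarith
    nlinarith
  obtain ⟨x₁, h1, h1'⟩ := D.exists_ge (f 1 + cB2 K C)
  rcases D.pres_or_rev x₁ with p1 | r1
  · refine ⟨x₁, p1, ?_, ?_⟩
    · rw [abs_of_nonneg (by linarith)]; linarith
    · rw [abs_of_nonneg (by linarith)]; unfold cN; linarith
  · obtain ⟨x₂, h2, h2'⟩ := D.exists_ge (f 1 + cB4 K C)
    rcases D.pres_or_rev x₂ with p2 | r2
    · refine ⟨x₂, p2, ?_, ?_⟩
      · rw [abs_of_nonneg (by linarith)]; linarith
      · rw [abs_of_nonneg (by linarith)]; unfold cN; linarith
    · refine ⟨x₁ * x₂, D.pres_of_rev_rev r1 r2, ?_, ?_⟩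
      · have e1 := r1 1 x₂ (by linarith)
        have g : 2 * cB2 K C + 2 * C ≤ |f (x₁ * 1) - f (x₁ * x₂)| := by
          apply D.gap (x := 1) (y := x₂) (D.inv x₁ 1 x₂)
          rw [abs_sub_comm, abs_of_nonneg (by linarith)]
          unfold cB4 at h2
          linarith
        rw [abs_of_nonneg (by linarith)] at g
        rw [mul_one] at g e1
        rw [abs_of_nonpos (by linarith)]
        linarith
      · have e1 := r1 1 x₂ (by linarith)
        have u1 := D.up (x₁ * 1) (x₁ * x₂)
        rw [D.inv] at u1
        have l1 := D.low 1 x₂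
        rw [abs_sub_comm, abs_of_nonneg (by linarith)] at l1
        rw [abs_of_nonneg (by linarith)] at u1
        rw [mul_one] at u1 e1
        have l2 : K * d 1 x₂ ≤ K * (K * (cB4 K C + 2 * C) + K * C) := by
          apply mul_le_mul_of_nonneg_left _ (by linarith)
          have : K * (f x₂ - f 1) ≤ K * (cB4 K C + 2 * C) :=
            mul_le_mul_of_nonneg_left (by linarith) (by linarith)
          linarith
        rw [abs_le]
        unfold cN
        constructor <;> linarith

theorem mul_zpow_self' (h : H) (k : ℤ) : h * h ^ k = h ^ (k + 1) := by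
  rw [add_comm k 1, zpow_one_add]

/-- the powers of a far-moving order preserving element march to the right -/
theorem zpow_step (D : LineData d f K C) {h : H} (hp : Pres f (cB K C) h)
    (hh : f 1 + cB2 K C ≤ f h) : ∀ k : ℤ, f (h ^ k) + cB K C ≤ f (h ^ (k + 1)) := by
  have hBpos := D.cB_pos
  have hB2 := D.cB_le_cB2
  have gapk : ∀ k : ℤ, cB K C ≤ |f (h ^ k) - f (h ^ (k + 1))| := by
    intro k
    apply D.gap (x := 1) (y := h)
    · have := D.inv (h ^ k) 1 h
      rw [mul_one, ← zpow_add_one] at this
      exact this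
    · rw [abs_sub_comm, abs_of_nonneg (by linarith)]
      unfold cB2 at hh
      linarith
  have fwd : ∀ k : ℤ, f (h ^ k) + cB K C ≤ f (h ^ (k + 1)) →
      f (h ^ (k + 1)) + cB K C ≤ f (h ^ (k + 1 + 1)) := by
    intro k hk
    have e := hp (h ^ k) (h ^ (k + 1)) hk
    rw [mul_zpow_self', mul_zpow_self'] at e
    have g := gapk (k + 1)
    rw [abs_of_nonpos (by linarith)] at g
    linarith
  have bwd : ∀ k : ℤ, f (h ^ (k + 1)) + cB K C ≤ f (h ^ (k + 1 + 1)) →
      f (h ^ k) + cB K C ≤ f (h ^ (k + 1)) := by
    intro k hk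
    by_contra hcon
    have hcon := not_le.mp hcon
    have g := gapk k
    have h3 : f (h ^ (k + 1)) + cB K C ≤ f (h ^ k) := by
      rcases abs_cases (f (h ^ k) - f (h ^ (k + 1))) with ⟨e1, e2⟩ | ⟨e1, e2⟩
      · rw [e1] at g; linarith
      · rw [e1] at g; linarith
    have e := hp (h ^ (k + 1)) (h ^ k) h3
    rw [mul_zpow_self', mul_zpow_self'] at e
    linarith
  intro k
  induction k using Int.induction_on with
  | zero => simpa using (show f 1 + cB K C ≤ f h by linarith)
  | succ i ih => exact fwd i ih
  | pred i ih =>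
    apply bwd
    rw [show (-(i : ℤ) - 1 + 1) = -(i : ℤ) by ring]
    exact ih

/-- the powers of a far-moving order preserving element are coarsely dense -/
theorem dense_zpow_of_pos (D : LineData d f K C) {h : H} (hp : Pres f (cB K C) h)
    (hh : f 1 + cB2 K C ≤ f h) :
    Function.Injective (fun k : ℤ => h ^ k) ∧
      ∀ x, ∃ k : ℤ, d (h ^ k) x ≤ K * (K * d 1 h + C) + K * C := by
  have hK := D.hK
  have hC := D.hC
  have hQ := D.zpow_step hp hh
  have hB := D.cB_pos
  have mono : StrictMono (fun k : ℤ => f (h ^ k)) :=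
    strictMono_int_of_lt_succ (fun k => by have := hQ k; linarith)
  refine ⟨fun k l hkl => mono.injective (congrArg f hkl), fun x => ?_⟩
  have up1 : ∀ n : ℕ, f 1 + n ≤ f (h ^ (n : ℤ)) := by
    intro n
    induction n with
    | zero => simp
    | succ n ih =>
      have := hQ n
      push_cast
      linarith
  have dn1 : ∀ n : ℕ, f (h ^ (-(n : ℤ))) ≤ f 1 - n := by
    intro n
    induction n with
    | zero => simp
    | succ n ih =>
      have := hQ (-(n : ℤ) - 1)
      rw [show (-(n : ℤ) - 1 + 1) = -(n : ℤ) by ring] at this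
      push_cast
      rw [show (-((n : ℤ) + 1)) = -(n : ℤ) - 1 by ring]
      linarith
  obtain ⟨k, hk1, hk2⟩ := Int.exists_greatest_of_bdd (P := fun k => f (h ^ k) ≤ f x)
    ⟨max 0 (f x - f 1), by
      intro z hz
      by_contra hcon
      have hcon := not_le.mp hcon
      have hz0 : 0 ≤ z := le_trans (le_max_left _ _) hcon.le
      have hz1 : f x - f 1 < z := lt_of_le_of_lt (le_max_right _ _) hcon
      lift z to ℕ using hz0
      have := up1 z
      linarith⟩
    ⟨-((f 1 - f x).toNat : ℤ), by
      have h1 := dn1 (f 1 - f x).toNat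
      have h2 := Int.self_le_toNat (f 1 - f x)
      show f (h ^ (-((f 1 - f x).toNat : ℤ))) ≤ f x
      linarith⟩
  have hk3 : f x < f (h ^ (k + 1)) := by
    by_contra hcon
    have := hk2 (k + 1) (not_lt.mp hcon)
    linarith
  have u1 := D.up (h ^ k) (h ^ (k + 1))
  have e1 : d (h ^ k) (h ^ (k + 1)) = d 1 h := by
    have := D.inv (h ^ k) 1 h
    rw [mul_one, ← zpow_add_one] at this
    exact this
  rw [e1] at u1
  have hk4 : f (h ^ k) < f (h ^ (k + 1)) := mono (by linarith)
  rw [abs_of_nonpos (by linarith)] at u1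
  have l1 := D.low (h ^ k) x
  rw [abs_of_nonpos (by linarith)] at l1
  refine ⟨k, ?_⟩
  have : K * -(f (h ^ k) - f x) ≤ K * (K * d 1 h + C) :=
    mul_le_mul_of_nonneg_left (by linarith) (by linarith)
  linarith

/-- bound for the length of the generator of the dense cyclic subgroup -/
def cL (K C : ℤ) : ℤ := K * cN K C + K * C

/-- bound for the density radius -/
def cR (K C : ℤ) : ℤ := K * (K * cL K C + C) + K * C

/-- Core theorem: an element with injective, coarsely dense powers, with explicit bounds. -/
theorem core (D : LineData d f K C) :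
    ∃ h : H, d 1 h ≤ cL K C ∧ Function.Injective (fun k : ℤ => h ^ k) ∧
      ∀ x, ∃ k : ℤ, d (h ^ k) x ≤ cR K C := by
  have hK := D.hK
  have hC := D.hC
  obtain ⟨h, hp, h1, h2⟩ := D.exists_pres
  have hL : d 1 h ≤ cL K C := by
    have l1 := D.low 1 h
    rw [abs_sub_comm] at l1
    have : K * |f h - f 1| ≤ K * cN K C := mul_le_mul_of_nonneg_left h2 (by linarith)
    unfold cL
    linarith
  have hR : K * (K * d 1 h + C) + K * C ≤ cR K C := by
    unfold cR
    have h3 : K * d 1 h ≤ K * cL K C := mul_le_mul_of_nonneg_left hL (by linarith)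
    have h4 : K * (K * d 1 h + C) ≤ K * (K * cL K C + C) :=
      mul_le_mul_of_nonneg_left (by linarith) (by linarith)
    linarith
  refine ⟨h, hL, ?_⟩
  rcases le_or_gt (f 1) (f h) with hle | hlt
  · rw [abs_of_nonneg (by linarith)] at h1
    obtain ⟨i1, i2⟩ := D.dense_zpow_of_pos hp (by linarith)
    exact ⟨i1, fun x => by obtain ⟨k, hk⟩ := i2 x; exact ⟨k, hk.trans hR⟩⟩
  · rw [abs_of_nonpos (by linarith)] at h1
    have hp' : Pres (fun x => - f x) (cB K C) h := by
      intro x y hxy
      have := hp y x (by linarith)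
      show - f (h * x) < - f (h * y)
      linarith
    obtain ⟨i1, i2⟩ := D.neg.dense_zpow_of_pos hp' (by show - f 1 + cB2 K C ≤ - f h; linarith)
    exact ⟨i1, fun x => by obtain ⟨k, hk⟩ := i2 x; exact ⟨k, hk.trans hR⟩⟩

end LineData

end Vale.Agent.Lib.P188
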