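import Mathlib

/-!
Definitions for P188: word metrics, quasi-isometries of finitely generated groups,
polycyclic and virtually polycyclic groups.
-/

namespace Vale.Agent.Lib.P188

/-- `wordLen S g`: the word length of `g` with respect to `S`, i.e. the least `n` such that `g`
is a product of `n` elements each of which lies in `S` or has its inverse in `S`
(and `0` if there is no such product). -/
noncomputable def wordLen {G : Type*} [Group G] (S : Set G) (g : G) : ℕ :=
  sInf {n : ℕ | ∃ l : List G, l.length = n ∧ (∀ x ∈ l, x ∈ S ∨ x⁻¹ ∈ S) ∧ l.prod = g}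

/-- The (left invariant) word metric of `S`: `d_S(x, y)` is the word length of `x⁻¹ y`. -/
noncomputable def wordDist {G : Type*} [Group G] (S : Set G) (x y : G) : ℕ :=
  wordLen S (x⁻¹ * y)

/-- `f` is a `(K, C)`-quasi-isometry from `G` with the word metric of `S` to `H` with the word
metric of `T`. -/
def IsQuasiIsometry {G H : Type*} [Group G] [Group H] (S : Set G) (T : Set H) (K C : ℝ)
    (f : G → H) : Prop :=
  (∀ x y : G, (wordDist S x y : ℝ) / K - C ≤ (wordDist T (f x) (f y) : ℝ) ∧
      (wordDist T (f x) (f y) : ℝ) ≤ K * (wordDist S x y : ℝ) + C) ∧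
    ∀ z : H, ∃ x : G, (wordDist T (f x) z : ℝ) ≤ C

/-- The groups `G` and `H` are finitely generated and quasi-isometric: for some finite generating
sets there is a `(K, C)`-quasi-isometry between the word metrics, with `K ≥ 1` and `C ≥ 0`. -/
def QuasiIsometric (G H : Type*) [Group G] [Group H] : Prop :=
  ∃ (S : Set G) (T : Set H), S.Finite ∧ T.Finite ∧
    Subgroup.closure S = ⊤ ∧ Subgroup.closure T = ⊤ ∧
    ∃ (K C : ℝ) (f : G → H), 1 ≤ K ∧ 0 ≤ C ∧ IsQuasiIsometry S T K C f

/-- `G` is polycyclic: there is a series `1 = A 0 ≤ A 1 ≤ ... ≤ A n = G` of subgroups with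
`A i` normal in `A (i + 1)` and `A (i + 1) / A i` cyclic. -/
def IsPolycyclic (G : Type*) [Group G] : Prop :=
  ∃ (n : ℕ) (A : ℕ → Subgroup G), A 0 = ⊥ ∧ A n = ⊤ ∧ ∀ i < n, A i ≤ A (i + 1) ∧
    ∃ _ : ((A i).subgroupOf (A (i + 1))).Normal,
      IsCyclic (↥(A (i + 1)) ⧸ (A i).subgroupOf (A (i + 1)))

/-- `G` is virtually polycyclic: it has a polycyclic subgroup of finite index. -/
def IsVirtuallyPolycyclic (G : Type*) [Group G] : Prop :=
  ∃ P : Subgroup G, P.FiniteIndex ∧ IsPolycyclic P

end Vale.Agent.Lib.P188
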