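import Vale.Agent.Lib.P188.Main
import Vale.Agent.Lib.P188.Ball

/-!
Effective quasi-isometric rigidity of the integers, with the hypotheses in real form.
-/

namespace Vale.Agent.Lib.P188

open Subgroup

theorem line_effective_real {H : Type*} [Group H] (S : Set H) (hSf : S.Finite)
    (hS : closure S = ⊤) (K C : ℕ) (hK : 1 ≤ K) (f : H → ℤ)
    (hf : ∀ x y : H, (wordDist S x y : ℝ) / K - C ≤ |(f x : ℝ) - (f y : ℝ)| ∧
        |(f x : ℝ) - (f y : ℝ)| ≤ K * (wordDist S x y : ℝ) + C)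
    (hdense : ∀ m : ℤ, ∃ x : H, |(f x : ℝ) - (m : ℝ)| ≤ C) :
    ∃ h : H, wordLen S h ≤ 38 * K ^ 11 * (C + 1) ∧
      (∀ k : ℤ, h ^ k = 1 → k = 0) ∧
      (∀ x : H, ∃ k : ℤ, wordDist S (h ^ k) x ≤ 40 * K ^ 13 * (C + 1)) ∧
      (zpowers h).FiniteIndex ∧
      (zpowers h).index ≤ (2 * S.ncard + 1) ^ (40 * K ^ 13 * (C + 1)) := by
  have hKpos : (0 : ℝ) < (K : ℝ) := by exact_mod_cast hK
  have hup : ∀ x y, |f x - f y| ≤ (K : ℤ) * (wordDist S x y : ℤ) + (C : ℤ) := by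
    intro x y
    have h1 := (hf x y).2
    have h2 : ((|f x - f y| : ℤ) : ℝ) = |(f x : ℝ) - (f y : ℝ)| := by push_cast; rfl
    rw [← h2] at h1
    exact_mod_cast h1
  have hlow : ∀ x y, (wordDist S x y : ℤ) ≤ (K : ℤ) * |f x - f y| + (K : ℤ) * (C : ℤ) := by
    intro x y
    have h1 := (hf x y).1
    have h2 : ((|f x - f y| : ℤ) : ℝ) = |(f x : ℝ) - (f y : ℝ)| := by push_cast; rfl
    rw [← h2] at h1
    have h3 : (wordDist S x y : ℝ) / K ≤ ((|f x - f y| : ℤ) : ℝ) + C := by linarith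
    rw [div_le_iff₀ hKpos] at h3
    have h4 : (wordDist S x y : ℝ) ≤ (K : ℝ) * ((|f x - f y| : ℤ) : ℝ) + (K : ℝ) * (C : ℝ) := by
      linarith
    exact_mod_cast h4
  have hd : ∀ m : ℤ, ∃ x, |f x - m| ≤ (C : ℤ) := by
    intro m
    obtain ⟨x, hx⟩ := hdense m
    refine ⟨x, ?_⟩
    have h2 : ((|f x - m| : ℤ) : ℝ) = |(f x : ℝ) - (m : ℝ)| := by push_cast; rfl
    rw [← h2] at hx
    exact_mod_cast hx
  obtain ⟨h, h1, h2, h3⟩ := line_effective S K C hK f hup hlow hd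
  refine ⟨h, h1, fun k hk => ?_, h3, ?_, ?_⟩
  · exact h2 (by simpa using hk)
  · exact finiteIndex_zpowers_of_dense S hSf hS h _ h3
  · exact index_zpowers_le_of_dense S hSf hS h _ h3

end Vale.Agent.Lib.P188
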