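import Vale.Agent.Lib.P188.VCyclic

/-!
Main theorems for P188.
-/

namespace Vale.Agent.Lib.P188

open Subgroup

/-- explicit bound for the constant `cL` -/
theorem cL_le {K C : ℤ} (hK : 1 ≤ K) (hC : 0 ≤ C) :
    LineData.cL K C ≤ 38 * K ^ 11 * (C + 1) := by
  have e : LineData.cL K C = 6 * K ^ 11 * C + 2 * K ^ 11 + 4 * K ^ 9 * C + 2 * K ^ 9
      + 9 * K ^ 7 * C + K ^ 7 + 7 * K ^ 5 * C + K ^ 5 + 7 * K ^ 3 * C + 5 * K * C := by
    simp only [LineData.cL, LineData.cN, LineData.cB4, LineData.cB2, LineData.cB, LineData.cB0,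
      LineData.cA, LineData.thr]
    ring
  rw [e]
  have p9 : K ^ 9 ≤ K ^ 11 := pow_le_pow_right₀ hK (by norm_num)
  have p7 : K ^ 7 ≤ K ^ 11 := pow_le_pow_right₀ hK (by norm_num)
  have p5 : K ^ 5 ≤ K ^ 11 := pow_le_pow_right₀ hK (by norm_num)
  have p3 : K ^ 3 ≤ K ^ 11 := pow_le_pow_right₀ hK (by norm_num)
  have p1 : K ≤ K ^ 11 := by simpa using pow_le_pow_right₀ hK (show 1 ≤ 11 by norm_num)
  have q9 : K ^ 9 * C ≤ K ^ 11 * C := mul_le_mul_of_nonneg_right p9 hC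
  have q7 : K ^ 7 * C ≤ K ^ 11 * C := mul_le_mul_of_nonneg_right p7 hC
  have q5 : K ^ 5 * C ≤ K ^ 11 * C := mul_le_mul_of_nonneg_right p5 hC
  have q3 : K ^ 3 * C ≤ K ^ 11 * C := mul_le_mul_of_nonneg_right p3 hC
  have q1 : K * C ≤ K ^ 11 * C := mul_le_mul_of_nonneg_right p1 hC
  have p0 : 0 ≤ K ^ 11 := by positivity
  linarith

/-- explicit bound for the constant `cR` -/
theorem cR_le {K C : ℤ} (hK : 1 ≤ K) (hC : 0 ≤ C) :
    LineData.cR K C ≤ 40 * K ^ 13 * (C + 1) := by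
  have e : LineData.cR K C = 6 * K ^ 13 * C + 2 * K ^ 13 + 4 * K ^ 11 * C + 2 * K ^ 11
      + 9 * K ^ 9 * C + K ^ 9 + 7 * K ^ 7 * C + K ^ 7 + 7 * K ^ 5 * C + 5 * K ^ 3 * C
      + 2 * K * C := by
    simp only [LineData.cR, LineData.cL, LineData.cN, LineData.cB4, LineData.cB2, LineData.cB,
      LineData.cB0, LineData.cA, LineData.thr]
    ring
  rw [e]
  have p11 : K ^ 11 ≤ K ^ 13 := pow_le_pow_right₀ hK (by norm_num)
  have p9 : K ^ 9 ≤ K ^ 13 := pow_le_pow_right₀ hK (by norm_num)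
  have p7 : K ^ 7 ≤ K ^ 13 := pow_le_pow_right₀ hK (by norm_num)
  have p5 : K ^ 5 ≤ K ^ 13 := pow_le_pow_right₀ hK (by norm_num)
  have p3 : K ^ 3 ≤ K ^ 13 := pow_le_pow_right₀ hK (by norm_num)
  have p1 : K ≤ K ^ 13 := by simpa using pow_le_pow_right₀ hK (show 1 ≤ 13 by norm_num)
  have q11 : K ^ 11 * C ≤ K ^ 13 * C := mul_le_mul_of_nonneg_right p11 hC
  have q9 : K ^ 9 * C ≤ K ^ 13 * C := mul_le_mul_of_nonneg_right p9 hC
  have q7 : K ^ 7 * C ≤ K ^ 13 * C := mul_le_mul_of_nonneg_right p7 hC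
  have q5 : K ^ 5 * C ≤ K ^ 13 * C := mul_le_mul_of_nonneg_right p5 hC
  have q3 : K ^ 3 * C ≤ K ^ 13 * C := mul_le_mul_of_nonneg_right p3 hC
  have q1 : K * C ≤ K ^ 13 * C := mul_le_mul_of_nonneg_right p1 hC
  have p0 : 0 ≤ K ^ 13 := by positivity
  linarith

/-- Effective quasi-isometric rigidity of the integers (integer form of the hypotheses). -/
theorem line_effective {H : Type*} [Group H] (S : Set H) (K C : ℕ) (hK : 1 ≤ K) (f : H → ℤ)
    (hup : ∀ x y, |f x - f y| ≤ (K : ℤ) * (wordDist S x y : ℤ) + (C : ℤ))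
    (hlow : ∀ x y, (wordDist S x y : ℤ) ≤ (K : ℤ) * |f x - f y| + (K : ℤ) * (C : ℤ))
    (hdense : ∀ m : ℤ, ∃ x, |f x - m| ≤ (C : ℤ)) :
    ∃ h : H, wordLen S h ≤ 38 * K ^ 11 * (C + 1) ∧ Function.Injective (fun k : ℤ => h ^ k) ∧
      ∀ x, ∃ k : ℤ, wordDist S (h ^ k) x ≤ 40 * K ^ 13 * (C + 1) := by
  have hK' : (1 : ℤ) ≤ (K : ℤ) := by exact_mod_cast hK
  have hC' : (0 : ℤ) ≤ (C : ℤ) := by positivity
  have D : LineData (fun x y => (wordDist S x y : ℤ)) f (K : ℤ) (C : ℤ) :=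
    { hK := hK'
      hC := hC'
      inv := fun h x y => by
        show ((wordDist S (h * x) (h * y) : ℕ) : ℤ) = (wordDist S x y : ℤ)
        rw [wordDist_mul_left]
      up := hup
      low := hlow
      dense := hdense }
  obtain ⟨h, h1, h2, h3⟩ := D.core
  refine ⟨h, ?_, h2, fun x => ?_⟩
  · have e : wordDist S 1 h = wordLen S h := by simp [wordDist]
    have h1' : (wordLen S h : ℤ) ≤ LineData.cL (K : ℤ) (C : ℤ) := by
      rw [← e]; exact h1
    have := h1'.trans (cL_le hK' hC')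
    exact_mod_cast this
  · obtain ⟨k, hk⟩ := h3 x
    refine ⟨k, ?_⟩
    have hk' : (wordDist S (h ^ k) x : ℤ) ≤ LineData.cR (K : ℤ) (C : ℤ) := hk
    have := hk'.trans (cR_le hK' hC')
    exact_mod_cast this

/-- Quasi-isometric rigidity of virtually cyclic groups. -/
theorem vcyclic_rigidity {G H : Type*} [Group G] [Group H] (z : G)
    (hfi : (zpowers z).FiniteIndex) (hQI : QuasiIsometric H G) :
    ∃ h : H, (zpowers h).FiniteIndex := by
  obtain ⟨S, T, hSf, hTf, hS, hT, K, C, f, hK, hC, hf, hdense⟩ := hQI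
  -- integer constants
  have hKc : (1 : ℤ) ≤ ⌈K⌉ := by
    have : ((1 : ℤ) : ℝ) ≤ K := by simpa using hK
    exact Int.le_ceil_iff.mpr (by simpa using lt_of_lt_of_le (by norm_num : ((1:ℤ):ℝ) - 1 < 1) hK)
  have hCc : (0 : ℤ) ≤ ⌈C⌉ := Int.ceil_nonneg hC
  have hKle : K ≤ (⌈K⌉ : ℝ) := Int.le_ceil K
  have hCle : C ≤ (⌈C⌉ : ℝ) := Int.le_ceil C
  have hKpos : (0 : ℝ) < K := by linarith
  have upG : ∀ x y, (wordDist T (f x) (f y) : ℤ) ≤ ⌈K⌉ * (wordDist S x y : ℤ) + ⌈C⌉ := by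
    intro x y
    have h1 := (hf x y).2
    have h2 : K * (wordDist S x y : ℝ) ≤ (⌈K⌉ : ℝ) * (wordDist S x y : ℝ) :=
      mul_le_mul_of_nonneg_right hKle (by positivity)
    have h3 : (wordDist T (f x) (f y) : ℝ) ≤ (⌈K⌉ : ℝ) * (wordDist S x y : ℝ) + (⌈C⌉ : ℝ) := by
      linarith
    exact_mod_cast h3
  have lowG : ∀ x y, (wordDist S x y : ℤ) ≤ ⌈K⌉ * (wordDist T (f x) (f y) : ℤ) + ⌈K⌉ * ⌈C⌉ := by
    intro x y
    have h1 := (hf x y).1
    have h2 : (wordDist S x y : ℝ) ≤ K * ((wordDist T (f x) (f y) : ℝ) + C) := by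
      have : (wordDist S x y : ℝ) / K ≤ (wordDist T (f x) (f y) : ℝ) + C := by linarith
      rw [div_le_iff₀ hKpos] at this
      linarith
    have h3 : K * ((wordDist T (f x) (f y) : ℝ) + C) ≤
        (⌈K⌉ : ℝ) * ((wordDist T (f x) (f y) : ℝ) + (⌈C⌉ : ℝ)) := by
      apply mul_le_mul hKle (by linarith) (by positivity) (by linarith)
    have h4 : (wordDist S x y : ℝ) ≤
        (⌈K⌉ : ℝ) * (wordDist T (f x) (f y) : ℝ) + (⌈K⌉ : ℝ) * (⌈C⌉ : ℝ) := by linarith
    exact_mod_cast h4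
  have denseG : ∀ g : G, ∃ x, (wordDist T (f x) g : ℤ) ≤ ⌈C⌉ := by
    intro g
    obtain ⟨x, hx⟩ := hdense g
    refine ⟨x, ?_⟩
    have : (wordDist T (f x) g : ℝ) ≤ (⌈C⌉ : ℝ) := hx.trans hCle
    exact_mod_cast this
  by_cases hz : Function.Injective (fun k : ℤ => z ^ k)
  · -- the infinite case
    obtain ⟨M, hM0, hM⟩ := exists_step_bound (z := z) T hTf
    obtain ⟨W, hW⟩ := exists_rep_bound (z := z) T
    have lip := coord_lipschitz T hT hz hM
    have lowc := wordDist_le_coord T hT hW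
    set A : ℤ := (wordLen T z : ℤ) with hA
    have hA0 : 0 ≤ A := by positivity
    have hW0 : (0 : ℤ) ≤ (W : ℤ) := by positivity
    set K2 : ℤ := M * ⌈K⌉ + ⌈K⌉ * A + 1 with hK2
    set C2 : ℤ := M * ⌈C⌉ + ⌈K⌉ * (2 * W + ⌈C⌉) with hC2
    have hK2pos : 1 ≤ K2 := by
      have h1 : 0 ≤ M * ⌈K⌉ := mul_nonneg hM0 (by linarith)
      have h2 : 0 ≤ ⌈K⌉ * A := mul_nonneg (by linarith) hA0
      linarith
    have hC2pos : 0 ≤ C2 := by
      have h1 : 0 ≤ M * ⌈C⌉ := mul_nonneg hM0 hCc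
      have h2 : 0 ≤ ⌈K⌉ * (2 * W + ⌈C⌉) := mul_nonneg (by linarith) (by linarith)
      linarith
    have D : LineData (fun x y => (wordDist S x y : ℤ)) (fun x => coord z (f x)) K2 C2 :=
      { hK := hK2pos
        hC := hC2pos
        inv := fun h x y => by
          show ((wordDist S (h * x) (h * y) : ℕ) : ℤ) = (wordDist S x y : ℤ)
          rw [wordDist_mul_left]
        up := fun x y => by
          have h1 := lip (f x) (f y)
          have h2 := upG x y
          have h3 : M * (wordDist T (f x) (f y) : ℤ) ≤ M * (⌈K⌉ * (wordDist S x y : ℤ) + ⌈C⌉) :=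
            mul_le_mul_of_nonneg_left h2 hM0
          have h4 : (0 : ℤ) ≤ (wordDist S x y : ℤ) := by positivity
          have h5 : 0 ≤ (⌈K⌉ * A + 1) * (wordDist S x y : ℤ) :=
            mul_nonneg (by nlinarith) h4
          have h6 : 0 ≤ ⌈K⌉ * (2 * W + ⌈C⌉) := mul_nonneg (by linarith) (by linarith)
          show |coord z (f x) - coord z (f y)| ≤ K2 * (wordDist S x y : ℤ) + C2
          rw [hK2, hC2]
          nlinarith
        low := fun x y => by
          have h1 := lowG x y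
          have h2 := lowc (f x) (f y)
          have h3 : ⌈K⌉ * (wordDist T (f x) (f y) : ℤ) ≤
              ⌈K⌉ * (A * |coord z (f x) - coord z (f y)| + 2 * W) :=
            mul_le_mul_of_nonneg_left h2 (by linarith)
          have h4 : 0 ≤ |coord z (f x) - coord z (f y)| := abs_nonneg _
          have h5 : 0 ≤ (M * ⌈K⌉ + 1) * |coord z (f x) - coord z (f y)| :=
            mul_nonneg (by nlinarith) h4
          have h6 : C2 ≤ K2 * C2 := by nlinarith
          show (wordDist S x y : ℤ) ≤ K2 * |coord z (f x) - coord z (f y)| + K2 * C2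
          have h7 : ⌈K⌉ * (2 * W + ⌈C⌉) ≤ C2 := by
            rw [hC2]
            have : 0 ≤ M * ⌈C⌉ := mul_nonneg hM0 hCc
            linarith
          have h8 : K2 * |coord z (f x) - coord z (f y)| =
              ⌈K⌉ * A * |coord z (f x) - coord z (f y)| +
                (M * ⌈K⌉ + 1) * |coord z (f x) - coord z (f y)| := by
            rw [hK2]; ring
          linarith
        dense := fun m => by
          obtain ⟨g, hg⟩ := coord_surj hz m
          obtain ⟨x, hx⟩ := denseG g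
          refine ⟨x, ?_⟩
          have h1 := lip (f x) g
          rw [hg] at h1
          have h2 : M * (wordDist T (f x) g : ℤ) ≤ M * ⌈C⌉ := mul_le_mul_of_nonneg_left hx hM0
          have h6 : 0 ≤ ⌈K⌉ * (2 * W + ⌈C⌉) := mul_nonneg (by linarith) (by linarith)
          show |coord z (f x) - m| ≤ C2
          rw [hC2]
          linarith }
    obtain ⟨h, -, -, h3⟩ := D.core
    refine ⟨h, finiteIndex_zpowers_of_dense S hSf hS h (LineData.cR K2 C2).toNat fun x => ?_⟩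
    obtain ⟨k, hk⟩ := h3 x
    refine ⟨k, ?_⟩
    have hk' : (wordDist S (h ^ k) x : ℤ) ≤ LineData.cR K2 C2 := hk
    have := Int.self_le_toNat (LineData.cR K2 C2)
    exact_mod_cast hk'.trans this
  · -- the finite case
    have hfin : IsOfFinOrder z := by
      rw [isOfFinOrder_iff_zpow_eq_one]
      unfold Function.Injective at hz
      simp only [not_forall] at hz
      obtain ⟨k, l, hkl, hne⟩ := hz
      refine ⟨k - l, sub_ne_zero.mpr hne, ?_⟩
      have hkl' : z ^ k = z ^ l := hkl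
      rw [zpow_sub, hkl', mul_inv_cancel]
    have hZfin : Finite (zpowers z) := hfin.finite_zpowers.to_subtype
    have hGfin : Finite G := by
      apply Nat.finite_of_card_ne_zero
      rw [← Subgroup.card_mul_index (zpowers z)]
      exact mul_ne_zero Nat.card_pos.ne' hfi.index_ne_zero
    obtain ⟨D, hD⟩ := (Set.finite_range (fun g : G => wordLen T g)).bddAbove
    have hHfin : Finite H := by
      have hball := finite_ball S hSf hS (⌈K⌉ * D + ⌈K⌉ * ⌈C⌉).toNat
      have huniv : {g : H | wordLen S g ≤ (⌈K⌉ * D + ⌈K⌉ * ⌈C⌉).toNat} = Set.univ := by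
        refine Set.eq_univ_of_forall (fun x => ?_)
        show wordLen S x ≤ (⌈K⌉ * D + ⌈K⌉ * ⌈C⌉).toNat
        have h1 := lowG 1 x
        have e : wordDist S 1 x = wordLen S x := by simp [wordDist]
        rw [e] at h1
        have h2 : wordDist T (f 1) (f x) ≤ D := hD ⟨_, rfl⟩
        have h3 : ⌈K⌉ * (wordDist T (f 1) (f x) : ℤ) ≤ ⌈K⌉ * (D : ℤ) :=
          mul_le_mul_of_nonneg_left (by exact_mod_cast h2) (by linarith)
        have h4 := Int.self_le_toNat (⌈K⌉ * D + ⌈K⌉ * ⌈C⌉)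
        have h5 : (wordLen S x : ℤ) ≤ ((⌈K⌉ * D + ⌈K⌉ * ⌈C⌉).toNat : ℤ) := by linarith
        exact_mod_cast h5
      rw [huniv] at hball
      exact Set.finite_univ_iff.mp hball
    exact ⟨1, inferInstance⟩

end Vale.Agent.Lib.P188
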