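import Vale.Agent.Lib.P188.WordMetric
import Vale.Agent.Lib.P188.Core

/-!
Quasi-isometric rigidity of virtually cyclic groups: a finitely generated group quasi-isometric
to a group with a cyclic subgroup of finite index has a cyclic subgroup of finite index.
-/

namespace Vale.Agent.Lib.P188

open Subgroup

section Coord

variable {G : Type*} [Group G] (z : G)

/-- representative of the left coset of `g` modulo `⟨z⟩` -/
noncomputable def cosetRep (g : G) : G := (QuotientGroup.mk g : G ⧸ zpowers z).out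

theorem exists_exp (g : G) : ∃ k : ℤ, g = cosetRep z g * z ^ k := by
  obtain ⟨h, hh⟩ := QuotientGroup.mk_out_eq_mul (zpowers z) g
  obtain ⟨m, hm⟩ := Subgroup.mem_zpowers_iff.mp h.2
  refine ⟨-m, ?_⟩
  unfold cosetRep
  rw [hh, zpow_neg, hm]
  group

/-- exponent of `g` relative to its coset representative -/
noncomputable def cosetExp (g : G) : ℤ := Classical.choose (exists_exp z g)

theorem cosetExp_spec (g : G) : g = cosetRep z g * z ^ cosetExp z g :=
  Classical.choose_spec (exists_exp z g)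

variable {z}

theorem cosetExp_uniq (hz : Function.Injective (fun k : ℤ => z ^ k)) (g : G)
    (c : G ⧸ zpowers z) (k : ℤ) (hg : g = c.out * z ^ k) : cosetExp z g = k := by
  have hc : (QuotientGroup.mk g : G ⧸ zpowers z) = c := by
    rw [hg, QuotientGroup.mk_mul_of_mem _ (zpow_mem_zpowers z k)]
    exact QuotientGroup.out_eq' c
  have h1 := cosetExp_spec z g
  unfold cosetRep at h1
  rw [hc] at h1
  have h2 : c.out * z ^ k = c.out * z ^ cosetExp z g := hg.symm.trans h1
  exact (hz (mul_left_cancel h2)).symm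

theorem cosetExp_mul (hz : Function.Injective (fun k : ℤ => z ^ k)) (s g : G) :
    cosetExp z (s * g) = cosetExp z (s * cosetRep z g) + cosetExp z g := by
  apply cosetExp_uniq hz (s * g) (QuotientGroup.mk (s * cosetRep z g))
  have h1 := cosetExp_spec z g
  have h2 := cosetExp_spec z (s * cosetRep z g)
  have h3 : s * g = (s * cosetRep z g) * z ^ cosetExp z g := by
    rw [mul_assoc, ← h1]
  rw [h3, zpow_add, ← mul_assoc]
  congr 1

/-- the coarse coordinate on `G` -/
noncomputable def coord (z : G) (x : G) : ℤ := cosetExp z x⁻¹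

theorem coord_surj (hz : Function.Injective (fun k : ℤ => z ^ k)) (m : ℤ) :
    ∃ g : G, coord z g = m := by
  refine ⟨(z ^ (m - cosetExp z 1))⁻¹, ?_⟩
  unfold coord
  rw [inv_inv]
  apply cosetExp_uniq hz _ (QuotientGroup.mk 1)
  have h1 := cosetExp_spec z (1 : G)
  have h2 : z ^ (m - cosetExp z 1) = 1 * z ^ (m - cosetExp z 1) := by rw [one_mul]
  rw [h2, h1, mul_assoc, ← zpow_add]
  have e : cosetExp z (cosetRep z 1 * z ^ cosetExp z 1) = cosetExp z 1 := by rw [← h1]
  rw [e]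
  congr 2
  ring

variable (S : Set G)

theorem exists_step_bound (hSf : S.Finite) [FiniteIndex (zpowers z)] :
    ∃ M : ℤ, 0 ≤ M ∧ ∀ s : G, (s ∈ S ∨ s⁻¹ ∈ S) → ∀ c : G ⧸ zpowers z,
      |cosetExp z (s * c.out)| ≤ M := by
  have hA : (S ∪ S⁻¹).Finite := hSf.union hSf.inv
  have : Finite ↥(S ∪ S⁻¹) := hA.to_subtype
  obtain ⟨M, hM⟩ := (Set.finite_range (fun p : ↥(S ∪ S⁻¹) × (G ⧸ zpowers z) =>
    |cosetExp z ((p.1 : G) * p.2.out)|)).bddAbove
  refine ⟨max M 0, le_max_right _ _, fun s hs c => ?_⟩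
  have hs' : s ∈ S ∪ S⁻¹ := by simpa using hs
  exact le_trans (hM ⟨(⟨s, hs'⟩, c), rfl⟩) (le_max_left _ _)

theorem coord_step (hz : Function.Injective (fun k : ℤ => z ^ k)) {M : ℤ}
    (hM : ∀ s : G, (s ∈ S ∨ s⁻¹ ∈ S) → ∀ c : G ⧸ zpowers z, |cosetExp z (s * c.out)| ≤ M)
    (x s : G) (hs : s ∈ S ∨ s⁻¹ ∈ S) : |coord z (x * s) - coord z x| ≤ M := by
  unfold coord
  rw [mul_inv_rev, cosetExp_mul hz, add_sub_cancel_right]
  exact hM s⁻¹ (by rw [inv_inv]; exact hs.symm) _

theorem coord_list (hz : Function.Injective (fun k : ℤ => z ^ k)) {M : ℤ}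
    (hM : ∀ s : G, (s ∈ S ∨ s⁻¹ ∈ S) → ∀ c : G ⧸ zpowers z, |cosetExp z (s * c.out)| ≤ M)
    (l : List G) (hl : ∀ s ∈ l, s ∈ S ∨ s⁻¹ ∈ S) (x : G) :
    |coord z (x * l.prod) - coord z x| ≤ M * l.length := by
  induction l generalizing x with
  | nil => simp
  | cons s l ih =>
    have h1 := ih (fun t ht => hl t (List.mem_cons_of_mem _ ht)) (x * s)
    have h2 := coord_step S hz hM x s (hl s List.mem_cons_self)
    rw [List.prod_cons, ← mul_assoc, List.length_cons]
    have h3 := abs_sub_le (coord z (x * s * l.prod)) (coord z (x * s)) (coord z x)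
    push_cast
    linarith

theorem coord_lipschitz (hS : closure S = ⊤) (hz : Function.Injective (fun k : ℤ => z ^ k))
    {M : ℤ}
    (hM : ∀ s : G, (s ∈ S ∨ s⁻¹ ∈ S) → ∀ c : G ⧸ zpowers z, |cosetExp z (s * c.out)| ≤ M)
    (x y : G) : |coord z x - coord z y| ≤ M * wordDist S x y := by
  obtain ⟨l, h1, h2, h3⟩ := wordLen_spec S hS (x⁻¹ * y)
  have := coord_list S hz hM l h2 x
  rw [h3, mul_inv_cancel_left, h1] at this
  rw [abs_sub_comm]
  exact this

theorem exists_rep_bound [FiniteIndex (zpowers z)] :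
    ∃ W : ℕ, ∀ c : G ⧸ zpowers z, wordLen S c.out ≤ W := by
  obtain ⟨W, hW⟩ := (Set.finite_range (fun c : G ⧸ zpowers z => wordLen S c.out)).bddAbove
  exact ⟨W, fun c => hW ⟨c, rfl⟩⟩

theorem wordDist_le_coord (hS : closure S = ⊤) {W : ℕ}
    (hW : ∀ c : G ⧸ zpowers z, wordLen S c.out ≤ W) (x y : G) :
    (wordDist S x y : ℤ) ≤ wordLen S z * |coord z x - coord z y| + 2 * W := by
  have hx := cosetExp_spec z x⁻¹
  have hy := cosetExp_spec z y⁻¹
  have e : x⁻¹ * y = cosetRep z x⁻¹ * z ^ (coord z x - coord z y) * (cosetRep z y⁻¹)⁻¹ := by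
    have hy' : y = (cosetRep z y⁻¹ * z ^ cosetExp z y⁻¹)⁻¹ := by rw [← hy, inv_inv]
    unfold coord
    rw [zpow_sub]
    calc x⁻¹ * y = (cosetRep z x⁻¹ * z ^ cosetExp z x⁻¹) *
          (cosetRep z y⁻¹ * z ^ cosetExp z y⁻¹)⁻¹ := by rw [← hx, ← hy']
      _ = _ := by group
  have h1 := wordLen_mul_le S hS (cosetRep z x⁻¹ * z ^ (coord z x - coord z y))
    (cosetRep z y⁻¹)⁻¹
  have h2 := wordLen_mul_le S hS (cosetRep z x⁻¹) (z ^ (coord z x - coord z y))
  have h3 := wordLen_zpow_le S hS z (coord z x - coord z y)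
  have h4 : wordLen S (cosetRep z x⁻¹) ≤ W := hW _
  have h5 : wordLen S (cosetRep z y⁻¹)⁻¹ ≤ W := by
    rw [wordLen_inv S hS]; exact hW _
  have h6 : wordDist S x y ≤ (coord z x - coord z y).natAbs * wordLen S z + 2 * W := by
    unfold wordDist
    rw [e]
    omega
  have h7 : ((coord z x - coord z y).natAbs : ℤ) = |coord z x - coord z y| := Int.natCast_natAbs _
  have h8 : (wordDist S x y : ℤ) ≤
      ((coord z x - coord z y).natAbs : ℤ) * (wordLen S z : ℤ) + 2 * (W : ℤ) := by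
    exact_mod_cast h6
  rw [h7] at h8
  linarith

end Coord

end Vale.Agent.Lib.P188
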