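import Vale.Agent.Lib.P188.Defs

/-!
Basic facts on word length and the word metric.
-/

namespace Vale.Agent.Lib.P188

variable {G : Type*} [Group G]

theorem exists_word (S : Set G) (hS : Subgroup.closure S = ⊤) (g : G) :
    ∃ l : List G, (∀ x ∈ l, x ∈ S ∨ x⁻¹ ∈ S) ∧ l.prod = g := by
  have hg : g ∈ (Subgroup.closure S).toSubmonoid := by
    rw [hS]; exact Subgroup.mem_top g
  rw [Subgroup.closure_toSubmonoid] at hg
  obtain ⟨l, hl, hp⟩ := Submonoid.exists_list_of_mem_closure hg
  refine ⟨l, fun x hx => ?_, hp⟩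
  have := hl x hx
  simpa using this

theorem wordLen_spec (S : Set G) (hS : Subgroup.closure S = ⊤) (g : G) :
    ∃ l : List G, l.length = wordLen S g ∧ (∀ x ∈ l, x ∈ S ∨ x⁻¹ ∈ S) ∧ l.prod = g := by
  have hne : {n : ℕ | ∃ l : List G, l.length = n ∧ (∀ x ∈ l, x ∈ S ∨ x⁻¹ ∈ S) ∧
      l.prod = g}.Nonempty := by
    obtain ⟨l, h1, h2⟩ := exists_word S hS g
    exact ⟨l.length, l, rfl, h1, h2⟩
  exact Nat.sInf_mem hne

theorem wordLen_le (S : Set G) {g : G} (l : List G) (h1 : ∀ x ∈ l, x ∈ S ∨ x⁻¹ ∈ S)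
    (h2 : l.prod = g) : wordLen S g ≤ l.length :=
  Nat.sInf_le ⟨l, rfl, h1, h2⟩

theorem wordLen_one (S : Set G) : wordLen S (1 : G) = 0 := by
  have := wordLen_le S (g := (1 : G)) [] (by simp) (by simp)
  simpa using this

theorem wordLen_mul_le (S : Set G) (hS : Subgroup.closure S = ⊤) (g h : G) :
    wordLen S (g * h) ≤ wordLen S g + wordLen S h := by
  obtain ⟨l1, a1, b1, c1⟩ := wordLen_spec S hS g
  obtain ⟨l2, a2, b2, c2⟩ := wordLen_spec S hS h
  have := wordLen_le S (g := g * h) (l1 ++ l2)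
    (fun x hx => by
      rcases List.mem_append.mp hx with hx | hx
      · exact b1 x hx
      · exact b2 x hx)
    (by rw [List.prod_append, c1, c2])
  rw [List.length_append, a1, a2] at this
  exact this

theorem wordLen_inv_le (S : Set G) (hS : Subgroup.closure S = ⊤) (g : G) :
    wordLen S g⁻¹ ≤ wordLen S g := by
  obtain ⟨l, a, b, c⟩ := wordLen_spec S hS g
  have := wordLen_le S (g := g⁻¹) (l.map (fun x => x⁻¹)).reverse
    (fun x hx => by
      rw [List.mem_reverse, List.mem_map] at hx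
      obtain ⟨y, hy, rfl⟩ := hx
      rcases b y hy with h | h
      · right; simpa using h
      · left; exact h)
    (by rw [← List.prod_inv_reverse, c])
  rw [List.length_reverse, List.length_map, a] at this
  exact this

theorem wordLen_inv (S : Set G) (hS : Subgroup.closure S = ⊤) (g : G) :
    wordLen S g⁻¹ = wordLen S g :=
  le_antisymm (wordLen_inv_le S hS g) (by simpa using wordLen_inv_le S hS g⁻¹)

theorem wordLen_pow_le (S : Set G) (hS : Subgroup.closure S = ⊤) (g : G) (n : ℕ) :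
    wordLen S (g ^ n) ≤ n * wordLen S g := by
  induction n with
  | zero => simp [wordLen_one]
  | succ n ih =>
    rw [pow_succ]
    have := wordLen_mul_le S hS (g ^ n) g
    rw [Nat.add_mul, one_mul]
    omega

theorem wordLen_zpow_le (S : Set G) (hS : Subgroup.closure S = ⊤) (g : G) (k : ℤ) :
    wordLen S (g ^ k) ≤ k.natAbs * wordLen S g := by
  rcases Int.natAbs_eq k with h | h
  · rw [h, zpow_natCast, Int.natAbs_natCast]
    exact wordLen_pow_le S hS g _
  · rw [h, zpow_neg, zpow_natCast, wordLen_inv S hS, Int.natAbs_neg, Int.natAbs_natCast]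
    exact wordLen_pow_le S hS g _

theorem wordDist_mul_left (S : Set G) (h x y : G) :
    wordDist S (h * x) (h * y) = wordDist S x y := by
  unfold wordDist
  congr 1
  group

theorem finite_ball (S : Set G) (hSf : S.Finite) (hS : Subgroup.closure S = ⊤) (R : ℕ) :
    {g : G | wordLen S g ≤ R}.Finite := by
  have hA : (S ∪ S⁻¹).Finite := hSf.union hSf.inv
  have : Finite ↥(S ∪ S⁻¹) := hA.to_subtype
  have hfin := List.finite_length_le ↥(S ∪ S⁻¹) R
  apply (hfin.image (fun l => (l.map Subtype.val).prod)).subset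
  intro g hg
  obtain ⟨l, hl1, hl2, hl3⟩ := wordLen_spec S hS g
  have hmem : l ∈ Set.range (List.map (Subtype.val : ↥(S ∪ S⁻¹) → G)) := by
    rw [Set.range_list_map_coe]
    intro x hx
    have := hl2 x hx
    simpa using this
  obtain ⟨l', rfl⟩ := hmem
  refine ⟨l', ?_, hl3⟩
  have hg' : wordLen S g ≤ R := hg
  rw [List.length_map] at hl1
  show l'.length ≤ R
  omega

/-- If the powers of `h` are `R`-dense for the word metric then `⟨h⟩` has finite index. -/
theorem finiteIndex_zpowers_of_dense (S : Set G) (hSf : S.Finite)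
    (hS : Subgroup.closure S = ⊤) (h : G) (R : ℕ)
    (hd : ∀ x, ∃ k : ℤ, wordDist S (h ^ k) x ≤ R) : (Subgroup.zpowers h).FiniteIndex := by
  have hfin := finite_ball S hSf hS R
  have : Finite {g : G | wordLen S g ≤ R} := hfin.to_subtype
  have hsurj : Function.Surjective (fun b : {g : G | wordLen S g ≤ R} =>
      (QuotientGroup.mk (b : G)⁻¹ : G ⧸ Subgroup.zpowers h)) := by
    intro q
    induction q using QuotientGroup.induction_on with
    | H y =>
      obtain ⟨k, hk⟩ := hd y⁻¹
      refine ⟨⟨(h ^ k)⁻¹ * y⁻¹, hk⟩, ?_⟩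
      show (QuotientGroup.mk ((h ^ k)⁻¹ * y⁻¹)⁻¹ : G ⧸ Subgroup.zpowers h) = QuotientGroup.mk y
      rw [QuotientGroup.eq]
      have : (((h ^ k)⁻¹ * y⁻¹)⁻¹)⁻¹ * y = (h ^ k)⁻¹ := by group
      rw [this]
      exact inv_mem (Subgroup.zpow_mem_zpowers h k)
  have := Finite.of_surjective _ hsurj
  exact Subgroup.finiteIndex_of_finite_quotient

/-- A cyclic group is polycyclic. -/
theorem isPolycyclic_of_isCyclic (P : Type*) [Group P] [IsCyclic P] : IsPolycyclic P := by
  refine ⟨1, fun i => if i = 0 then ⊥ else ⊤, by simp, by simp, ?_⟩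
  intro i hi
  have hi0 : i = 0 := by omega
  subst hi0
  simp only [zero_add, one_ne_zero, if_true, if_false]
  refine ⟨bot_le, ?_⟩
  have hn : ((⊥ : Subgroup P).subgroupOf ⊤).Normal := by
    rw [Subgroup.bot_subgroupOf]; infer_instance
  refine ⟨hn, ?_⟩
  have : IsCyclic (⊤ : Subgroup P) :=
    isCyclic_of_surjective (Subgroup.topEquiv (G := P)).symm (Subgroup.topEquiv (G := P)).symm.surjective
  exact isCyclic_of_surjective (QuotientGroup.mk' _) (QuotientGroup.mk'_surjective _)

theorem isVirtuallyPolycyclic_of_zpowers (h : G) (hfi : (Subgroup.zpowers h).FiniteIndex) :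
    IsVirtuallyPolycyclic G :=
  ⟨Subgroup.zpowers h, hfi, isPolycyclic_of_isCyclic _⟩

end Vale.Agent.Lib.P188
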